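import Vale.Agent.P052.Geometry

namespace Vale.Agent.Results.P052.BorsukFailsFrom63

/-- Borsuk's conjecture fails in every dimension `d ≥ 63`. -/
theorem result : ∀ d : ℕ, 63 ≤ d →
    ∃ Y : Set (EuclideanSpace ℝ (Fin d)),
      Bornology.IsBounded Y ∧ 0 < Metric.diam Y ∧
        ¬ ∃ Z : Fin (d + 1) → Set (EuclideanSpace ℝ (Fin d)),
          Y = ⋃ i, Z i ∧ ∀ i, Metric.diam (Z i) < Metric.diam Y :=
  fun d hd => Vale.Agent.P052.borsuk_fails d hd

end Vale.Agent.Results.P052.BorsukFailsFrom63
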